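import Vale.Agent.P146.H94.Osc
import Vale.Agent.P146.H186.Brg

/-!
# P146: the oscillation of the responses of the SK system on a box of field variances (helper94)

If the free energy of `skS n K m b (amp w P v)` is within `E` of an affine function of the
variances with all slopes `g / 2` on the box of radius `2 R`, then every response `cSK` is within
`4 E / R` of `g` on the box of radius `R`: the input `δ = 8 E / R` of `sel_SK`, `sel_gg`.
-/

open Set

namespace Vale.Agent.P146.H94.Osc

open Vale.Agent.P157.Lv Vale.Agent.P157.Lv.Sy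
open Vale.Agent.P146.H93 (Cd skS Em)
open Vale.Agent.P146.H186 (amp amp_mem amp_update cSK VSK SK_resp VSK_le)
open Vale.Agent.P146.H610.Win (Bx)

variable {n K : ℕ} {m b w : ℕ → ℝ}

lemma em_nonneg (hm : Em K m) {l : ℕ} (hl : l ≤ K + 1) : 0 ≤ m l := by
  induction l with
  | zero => rw [hm.m0]
  | succ l ih => exact (ih (by omega)).trans (hm.mono l (by omega))

/-- the free energy along one variance: derivative and monotonicity of the response -/
theorem fe_deriv (hm : Em K m) {P : Finset ℕ} (hP : ∀ p ∈ P, 1 ≤ p ∧ p ≤ K)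
    (v : {p // p ∈ P} → ℝ) (p : {p // p ∈ P}) {s : ℝ} (hs : 0 < s) :
    HasDerivAt (fun t => (skS n K m b (amp w P (Function.update v p t))).fe)
      (cSK n K m b (amp w P (Function.update v p s)) p / 2) s ∧
    ∃ χ' : ℝ, HasDerivAt (fun t => cSK n K m b (amp w P (Function.update v p t)) p) χ' s ∧
      χ' ≤ 0 := by
  obtain ⟨h1, χ', h2, h3⟩ := SK_resp (n := n) (m := m) (b := b) (w := amp w P v) hm (hP p p.2) hs
  simp only [← amp_update] at h1 h2 h3
  refine ⟨h1, χ', h2, ?_⟩
  have h4 : 0 ≤ n - VSK (n := n) m b (amp w P (Function.update v p s)) (hP p p.2) := by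
    linarith [VSK_le (n := n) (b := b) (w := amp w P (Function.update v p s)) hm (hP p p.2)]
  have h5 := mul_nonneg (em_nonneg hm (l := p) (by have := (hP p p.2).2; omega)) h4
  by_contra h6
  push Not at h6
  have := mul_pos (mul_pos (by norm_num : (0 : ℝ) < 2) hs) h6
  linarith

/-- the response is antitone in its own variance -/
theorem cSK_anti (hm : Em K m) {P : Finset ℕ} (hP : ∀ p ∈ P, 1 ≤ p ∧ p ≤ K)
    (v : {p // p ∈ P} → ℝ) (p : {p // p ∈ P}) {a c : ℝ} (ha : 0 < a) :
    AntitoneOn (fun t => cSK n K m b (amp w P (Function.update v p t)) p) (Icc a c) := by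
  have hpos : ∀ s ∈ Icc a c, 0 < s := fun s hs => ha.trans_le hs.1
  refine antitoneOn_of_deriv_nonpos (convex_Icc a c) (fun s hs => ?_) (fun s hs => ?_)
    fun s hs => ?_
  · obtain ⟨-, χ', h, -⟩ := fe_deriv (n := n) (b := b) (w := w) hm hP v p (hpos s hs)
    exact h.continuousAt.continuousWithinAt
  · obtain ⟨-, χ', h, -⟩ := fe_deriv (n := n) (b := b) (w := w) hm hP v p
      (hpos s (interior_subset hs))
    exact h.differentiableAt.differentiableWithinAt
  · obtain ⟨-, χ', h, h0⟩ := fe_deriv (n := n) (b := b) (w := w) hm hP v p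
      (hpos s (interior_subset hs))
    rw [h.deriv]
    exact h0

/-- **The responses on the box**: from the free energies on the larger box. -/
theorem cSK_near (hm : Em K m) {P : Finset ℕ} (hP : ∀ p ∈ P, 1 ≤ p ∧ p ≤ K)
    {c : {p // p ∈ P} → ℝ} {R E A g : ℝ} (hR : 0 < R) (hc : ∀ p, 2 * R < c p)
    (hE : ∀ v ∈ Bx c (2 * R),
      |(skS n K m b (amp w P v)).fe - (A + g / 2 * ∑ p, v p)| ≤ E)
    {v : {p // p ∈ P} → ℝ} (hv : v ∈ Bx c R) (p : {p // p ∈ P}) :
    |cSK n K m b (amp w P v) p - g| ≤ 4 * E / R := by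
  have hvp := abs_le.1 (hv p)
  have h0 : 0 < v p - R := by linarith [hc p]
  have key := abs_sub_le (F := fun t => (skS n K m b (amp w P (Function.update v p t))).fe)
    (χ := fun t => cSK n K m b (amp w P (Function.update v p t)) p) (t := v p) (R := R) (E := E)
    (A := A + g / 2 * (∑ q, v q - v p)) (g := g) hR
    (fun s hs => (fe_deriv (n := n) (b := b) (w := w) hm hP v p (h0.trans_le hs.1)).1)
    (cSK_anti (n := n) (b := b) (w := w) hm hP v p h0)
    (fun s hs => by
      have hB : Function.update v p s ∈ Bx c (2 * R) := by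
        intro q
        by_cases h : q = p
        · subst h
          rw [Function.update_self]
          exact abs_le.2 ⟨by linarith [hs.1], by linarith [hs.2]⟩
        · rw [Function.update_of_ne h]
          exact (hv q).trans (by linarith)
      have h1 := hE _ hB
      have e : ∑ q, Function.update v p s q = ∑ q, v q - v p + s := by
        rw [Finset.sum_update_of_mem (Finset.mem_univ p), Finset.sdiff_singleton_eq_erase,
          ← Finset.add_sum_erase Finset.univ v (Finset.mem_univ p)]
        ring
      rw [e] at h1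
      have e2 : A + g / 2 * (∑ q, v q - v p + s) = A + g / 2 * (∑ q, v q - v p) + g / 2 * s := by
        ring
      rwa [e2] at h1)
  have e3 : Function.update v p (v p) = v := Function.update_eq_self p v
  simp only [e3] at key
  exact key

/-- **The input of `sel_SK` / `sel_gg`**: the oscillation of the responses on the box. -/
theorem cSK_osc (hm : Em K m) {P : Finset ℕ} (hP : ∀ p ∈ P, 1 ≤ p ∧ p ≤ K)
    {c : {p // p ∈ P} → ℝ} {R E A g : ℝ} (hR : 0 < R) (hc : ∀ p, 2 * R < c p)
    (hE : ∀ v ∈ Bx c (2 * R),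
      |(skS n K m b (amp w P v)).fe - (A + g / 2 * ∑ p, v p)| ≤ E)
    {v : {p // p ∈ P} → ℝ} (hv : v ∈ Bx c R) (p : {p // p ∈ P}) :
    |cSK n K m b (amp w P v) p - cSK n K m b (amp w P c) p| ≤ 8 * E / R := by
  have h1 := cSK_near (n := n) hm hP hR hc hE hv p
  have h2 := cSK_near (n := n) hm hP hR hc hE (v := c) (fun q => by simp [hR.le]) p
  have h3 : cSK n K m b (amp w P v) p - cSK n K m b (amp w P c) p =
      (cSK n K m b (amp w P v) p - g) - (cSK n K m b (amp w P c) p - g) := by ring
  rw [h3]
  calc |(cSK n K m b (amp w P v) p - g) - (cSK n K m b (amp w P c) p - g)|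
      ≤ |cSK n K m b (amp w P v) p - g| + |cSK n K m b (amp w P c) p - g| := abs_sub _ _
    _ ≤ 4 * E / R + 4 * E / R := add_le_add h1 h2
    _ = 8 * E / R := by ring

end Vale.Agent.P146.H94.Osc
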