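import Vale.Agent.P146.H758.Sand
import Vale.Agent.P146.H479.Expo
import Vale.Agent.P146.H479.ConcK
import Vale.Agent.P146.U.AP3

/-!
# P146, lower half: the pure laws with a white field and the a priori box (helper94)

* `PF n β x V` = free energy of the pure law: exponent `x`, all bonds, white field of variance `V`;
* `dv` = its deviation from `P1 n β x + n V / (2 β)`;
* `Lo`, `Hi`: `-(l n x⁵) ≤ dv`, `dv ≤ l n x⁵`;
* `Box n β B u`: `|dv v V| ≤ B n u⁵` for all `v ∈ [u/2, 4u]`, `V ∈ [0, 8u³]`.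
* `PF_conc` (concave in `V`), `PF_conv` (convex in `x`), `xPF_conv` (`x * PF` convex in `x`),
  `PF_cx` (`4 PF (2x) ≤ PF x + 3 PF (3x)`), and the rules for `Lo`, `Hi`, `Box`.
-/

open MeasureTheory ProbabilityTheory Set

namespace Vale.Agent.P146.H94

open Vale.Agent.P157 Vale.Agent.P157.Lv Vale.Agent.P157.Lv.Sy
open Vale.Agent.P146.H425 Vale.Agent.P146.H325 Vale.Agent.P146.R1 Vale.Agent.P146.U
open Vale.Agent.P146.H93 Vale.Agent.P146.H479 Vale.Agent.P146.H758
open Vale.Agent.P146.H66 (cm em_cm fe_mono_m)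

set_option linter.unusedSectionVars false

variable {n : ℕ} {β x y z u B V V' l : ℝ}

/-- the free energy of the pure law with a white field of variance `V` (= 758's `Pu`) -/
noncomputable abbrev PF (n : ℕ) (β x V : ℝ) : ℝ := Pu n β x V

/-- the amplitudes of the pure law -/
noncomputable def vP (n : ℕ) (β V : ℝ) : Es n → ℝ
  | Sum.inl _ => β / √n
  | Sum.inr _ => √V

/-- the deviation from the law without field -/
noncomputable def dv (n : ℕ) (β x V : ℝ) : ℝ := PF n β x V - P1 n β x - n * V / (2 * β)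

/-- the lower side -/
def Lo (n : ℕ) (β x V l : ℝ) : Prop := -(l * (n * x ^ 5)) ≤ dv n β x V

/-- the upper side -/
def Hi (n : ℕ) (β x V l : ℝ) : Prop := dv n β x V ≤ l * (n * x ^ 5)

/-- **The a priori box at the scale `u`.** -/
def Box (n : ℕ) (β B u : ℝ) : Prop :=
  ∀ v ∈ Icc (u / 2) (4 * u), ∀ V ∈ Icc 0 (8 * u ^ 3), |dv n β v V| ≤ B * (n * u ^ 5)

/-! ### the pure law as one layer -/

lemma cm_one (x : ℝ) : cm 1 x 1 = x := by
  unfold cm
  rw [if_neg one_ne_zero, if_pos le_rfl]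

/-- the pure law is one layer on `F0` -/
theorem PF_VW (hx : 0 < x) (hx1 : x ≤ 1) : PF n β x V = VW x (vP n β V) (F0 n) 0 := by
  show (skS n 1 (cm 1 x) (fun _ => β / √n) (fun _ => √V)).fe = _
  rw [fe_eq (em_cm le_rfl hx hx1), VG_succ, VG_zero]
  show VW (cm 1 x 1) _ _ _ = _
  rw [cm_one]
  congr 1

/-- `x PF` is a log-Laplace transform -/
theorem xPF_log (hx : 0 < x) (hx1 : x ≤ 1) : x * PF n β x V =
    Real.log (∫ z, Real.exp (x * F0 n (vP n β V * z)) ∂(gI (Es n))) := by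
  rw [PF_VW hx hx1]
  unfold VW
  rw [← mul_assoc, mul_one_div_cancel hx.ne', one_mul]
  simp only [zero_add]

/-- no field -/
theorem PF_zero (hx : 0 < x) (hx1 : x ≤ 1) : PF n β x 0 = P1 n β x := Pu_zero hx hx1

lemma dv_zero (hx : 0 < x) (hx1 : x ≤ 1) : dv n β x 0 = 0 := by
  unfold dv
  rw [PF_zero hx hx1, mul_zero, zero_div]
  ring

/-- the pure law is nondecreasing in the exponent -/
theorem PF_mono (hx : 0 < x) (hxy : x ≤ y) (hy : y ≤ 1) : PF n β x V ≤ PF n β y V := by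
  refine fe_mono_m (em_cm le_rfl hx (hxy.trans hy)) (em_cm le_rfl (hx.trans_le hxy) hy)
    (fun j h1 h2 => ?_) _ _
  have : j = 1 := by omega
  rw [this, cm_one, cm_one]
  exact hxy

/-- **The pure law is convex in the exponent.** -/
theorem PF_conv (n : ℕ) (β V : ℝ) : ConvexOn ℝ (Ioc 0 1) fun x => PF n β x V := by
  refine ⟨convex_Ioc 0 1, fun x hx y hy a c ha hc hac => ?_⟩
  have hz : a • x + c • y ∈ Ioc (0 : ℝ) 1 := convex_Ioc 0 1 hx hy ha hc hac
  simp only [smul_eq_mul] at hz ⊢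
  have h1 := fe_conv (n := n) (em_cm le_rfl hx.1 hx.2) (em_cm le_rfl hy.1 hy.2)
    (fun _ => β / √n) (fun _ => √V) ha hc hac
  have e : (fun j => a * cm 1 x j + c * cm 1 y j) = cm 1 (a * x + c * y) := by
    funext j
    unfold cm
    split_ifs
    · ring
    · rfl
    · linarith
  rwa [e] at h1

/-- Hoelder for exponentials -/
lemma log_conv {Ω : Type*} [MeasurableSpace Ω] {μ : Measure Ω} [NeZero μ]
    {A B : Ω → ℝ} {s t : ℝ} (hs : 0 ≤ s) (ht : 0 ≤ t) (hst : s + t = 1)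
    (iA : Integrable (fun x => Real.exp (A x)) μ) (iB : Integrable (fun x => Real.exp (B x)) μ)
    (iAB : Integrable (fun x => Real.exp (s * A x + t * B x)) μ) :
    Real.log (∫ x, Real.exp (s * A x + t * B x) ∂μ) ≤
      s * Real.log (∫ x, Real.exp (A x) ∂μ) + t * Real.log (∫ x, Real.exp (B x) ∂μ) := by
  have pA : 0 < ∫ x, Real.exp (A x) ∂μ := integral_exp_pos iA
  have pB : 0 < ∫ x, Real.exp (B x) ∂μ := integral_exp_pos iB
  have pAB : 0 < ∫ x, Real.exp (s * A x + t * B x) ∂μ := integral_exp_pos iAB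
  set α := Real.log (∫ x, Real.exp (A x) ∂μ) with hα
  set β := Real.log (∫ x, Real.exp (B x) ∂μ) with hβ
  have eA : Real.exp α = ∫ x, Real.exp (A x) ∂μ := Real.exp_log pA
  have eB : Real.exp β = ∫ x, Real.exp (B x) ∂μ := Real.exp_log pB
  have h1 : ∫ x, Real.exp (s * A x + t * B x) * Real.exp (-(s * α + t * β)) ∂μ ≤
      ∫ x, (s * (Real.exp (A x) * Real.exp (-α)) + t * (Real.exp (B x) * Real.exp (-β))) ∂μ := by
    refine integral_mono (iAB.mul_const _) (((iA.mul_const _).const_mul s).add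
      ((iB.mul_const _).const_mul t)) fun x => ?_
    simp only [← Real.exp_add]
    have h2 := convexOn_exp.2 (Set.mem_univ (A x + -α)) (Set.mem_univ (B x + -β)) hs ht hst
    simp only [smul_eq_mul] at h2
    refine le_trans (le_of_eq ?_) h2
    congr 1
    ring
  rw [integral_mul_const, integral_add ((iA.mul_const _).const_mul s)
    ((iB.mul_const _).const_mul t), integral_const_mul, integral_const_mul, integral_mul_const,
    integral_mul_const, ← eA, ← eB, ← Real.exp_add, ← Real.exp_add, add_neg_cancel,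
    add_neg_cancel, Real.exp_zero, mul_one, mul_one, hst] at h1
  rw [Real.exp_neg, ← div_eq_mul_inv, div_le_one (Real.exp_pos _)] at h1
  exact (Real.log_le_iff_le_exp pAB).2 h1

/-- **`x PF n β x V` is convex in `x`.** -/
theorem xPF_conv (n : ℕ) (β V : ℝ) : ConvexOn ℝ (Ioc 0 1) fun x => x * PF n β x V := by
  refine ⟨convex_Ioc 0 1, fun x hx y hy a c ha hc hac => ?_⟩
  have hz : a • x + c • y ∈ Ioc (0 : ℝ) 1 := convex_Ioc 0 1 hx hy ha hc hac
  simp only [smul_eq_mul] at hz ⊢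
  rw [xPF_log hx.1 hx.2, xPF_log hy.1 hy.2, xPF_log hz.1 hz.2]
  have i : ∀ r : ℝ, Integrable (fun z => Real.exp (r * F0 n (vP n β V * z))) (gI (Es n)) := by
    intro r
    have := (egv (F0_lip n) 0 (vP n β V) r).integrable
    simpa only [zero_add] using this
  have e : ∀ z, (a * x + c * y) * F0 n (vP n β V * z) =
      a * (x * F0 n (vP n β V * z)) + c * (y * F0 n (vP n β V * z)) := fun z => by ring
  have i3 := i (a * x + c * y)
  simp only [e] at i3 ⊢
  exact log_conv ha hc hac (i x) (i y) i3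

/-- **`4 PF (2x) ≤ PF x + 3 PF (3x)`.** -/
theorem PF_cx (hx : 0 < x) (hx3 : 3 * x ≤ 1) :
    4 * PF n β (2 * x) V ≤ PF n β x V + 3 * PF n β (3 * x) V := by
  have h := (xPF_conv n β V).2 (show x ∈ Ioc (0 : ℝ) 1 from ⟨hx, by linarith⟩)
    (show 3 * x ∈ Ioc (0 : ℝ) 1 from ⟨by linarith, hx3⟩) (show (0 : ℝ) ≤ 1 / 2 by norm_num)
    (show (0 : ℝ) ≤ 1 / 2 by norm_num) (by norm_num)
  simp only [smul_eq_mul] at h
  rw [show 1 / 2 * x + 1 / 2 * (3 * x) = 2 * x by ring] at h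
  have h2 : x * (4 * PF n β (2 * x) V) ≤ x * (PF n β x V + 3 * PF n β (3 * x) V) := by
    linarith
  exact le_of_mul_le_mul_left h2 hx

/-! ### concavity in the variance of the field -/

/-- supergradients -/
lemma PF_super (hx : 0 < x) (hx1 : x ≤ 1) (hβ : 0 ≤ β) (hV : 0 ≤ V) :
    ∃ g : ℝ, ∀ V', 0 ≤ V' → PF n β x V' ≤ PF n β x V + g * (V' - V) := by
  have hb : Na 1 fun _ : ℕ => β / √(n : ℝ) := fun _ _ _ => by positivity
  have hw : ∀ V : ℝ, Na 1 fun _ : ℕ => √V := fun V _ _ _ => Real.sqrt_nonneg _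
  refine ⟨1 / 2 * H186.cSK n 1 (cm 1 x) (fun _ => β / √n) (fun _ => √V) 1, fun V' hV' => ?_⟩
  have h := fe_super (n := n) (em_cm le_rfl hx hx1) hb (hw V) hb (hw V')
  refine h.trans (le_of_eq ?_)
  unfold gv
  simp only [Finset.univ_unique, Fin.default_eq_zero, Finset.sum_singleton, sub_self, zero_mul,
    zero_add, Real.sq_sqrt hV, Real.sq_sqrt hV']
  show (skS n 1 (cm 1 x) (fun _ => β / √n) (fun _ => √V)).fe + _ =
    (skS n 1 (cm 1 x) (fun _ => β / √n) (fun _ => √V)).fe + _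
  rw [show ((0 : Fin 1) : ℕ) + 1 = 1 from rfl]
  ring

/-- **The pure law is concave in the variance of the field.** -/
theorem PF_conc (hx : 0 < x) (hx1 : x ≤ 1) (hβ : 0 ≤ β) :
    ConcaveOn ℝ (Ici 0) fun V => PF n β x V := by
  refine ⟨convex_Ici 0, fun p hp q hq a c ha hc hac => ?_⟩
  simp only [smul_eq_mul, mem_Ici] at hp hq ⊢
  have hz : 0 ≤ a * p + c * q := by positivity
  obtain ⟨g, hg⟩ := PF_super (n := n) hx hx1 hβ hz
  have h1 := mul_le_mul_of_nonneg_left (hg p hp) ha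
  have h2 := mul_le_mul_of_nonneg_left (hg q hq) hc
  have e : a * (PF n β x (a * p + c * q) + g * (p - (a * p + c * q))) +
      c * (PF n β x (a * p + c * q) + g * (q - (a * p + c * q))) = PF n β x (a * p + c * q) := by
    have : c = 1 - a := by linarith
    subst this
    ring
  linarith

theorem dv_conc (hx : 0 < x) (hx1 : x ≤ 1) (hβ : 0 ≤ β) :
    ConcaveOn ℝ (Ici 0) fun V => dv n β x V := by
  refine ⟨convex_Ici 0, fun p hp q hq a c ha hc hac => ?_⟩
  have h := (PF_conc (n := n) hx hx1 hβ).2 hp hq ha hc hac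
  simp only [smul_eq_mul] at h ⊢
  unfold dv
  have e : P1 n β x = a * P1 n β x + c * P1 n β x := by rw [← add_mul, hac, one_mul]
  have e2 : (n : ℝ) * (a * p + c * q) / (2 * β) = a * (n * p / (2 * β)) +
      c * (n * q / (2 * β)) := by ring
  rw [e2]
  linarith

/-- the deviation at a smaller field -/
theorem dv_shrink (hx : 0 < x) (hx1 : x ≤ 1) (hβ : 0 ≤ β) (hV : 0 ≤ V') (hVV : V' ≤ V)
    (hV0 : 0 < V) : V' / V * dv n β x V ≤ dv n β x V' := by
  have h := (dv_conc (n := n) hx hx1 hβ).2 (show (0 : ℝ) ∈ Ici (0 : ℝ) from mem_Ici.2 le_rfl)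
    (show V ∈ Ici (0 : ℝ) from hV0.le)
    (show 0 ≤ 1 - V' / V by rw [sub_nonneg, div_le_one hV0]; exact hVV)
    (show 0 ≤ V' / V by positivity) (by ring)
  simp only [smul_eq_mul] at h
  rw [dv_zero hx hx1, mul_zero, zero_add, zero_add,
    div_mul_cancel₀ _ hV0.ne'] at h
  exact h

/-! ### the rules for `Lo` and `Hi` -/

lemma Lo.le (h : Lo n β x V l) : P1 n β x + n * V / (2 * β) - l * (n * x ^ 5) ≤ PF n β x V := by
  unfold Lo dv at h
  linarith

lemma Lo.of (h : P1 n β x + n * V / (2 * β) - l * (n * x ^ 5) ≤ PF n β x V) : Lo n β x V l := by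
  unfold Lo dv
  linarith

lemma Hi.le (h : Hi n β x V l) : PF n β x V ≤ P1 n β x + n * V / (2 * β) + l * (n * x ^ 5) := by
  unfold Hi dv at h
  linarith

lemma Hi.of (h : PF n β x V ≤ P1 n β x + n * V / (2 * β) + l * (n * x ^ 5)) : Hi n β x V l := by
  unfold Hi dv
  linarith

lemma nx_nonneg (hx : 0 ≤ x) : 0 ≤ (n : ℝ) * x ^ 5 := by positivity

lemma Lo.mono (hx : 0 ≤ x) (h : Lo n β x V l) {l' : ℝ} (hl : l ≤ l') : Lo n β x V l' := by
  unfold Lo at h ⊢
  have := mul_le_mul_of_nonneg_right hl (nx_nonneg (n := n) hx)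
  linarith

lemma Hi.mono (hx : 0 ≤ x) (h : Hi n β x V l) {l' : ℝ} (hl : l ≤ l') : Hi n β x V l' := by
  unfold Hi at h ⊢
  have := mul_le_mul_of_nonneg_right hl (nx_nonneg (n := n) hx)
  linarith

/-- the lower side at a smaller field -/
theorem Lo.shrink (hx : 0 < x) (hx1 : x ≤ 1) (hβ : 0 ≤ β) (h : Lo n β x V l) (hV : 0 ≤ V')
    (hVV : V' ≤ V) (hV0 : 0 < V) : Lo n β x V' (V' / V * l) := by
  unfold Lo at h ⊢
  refine le_trans (le_of_eq ?_) ((mul_le_mul_of_nonneg_left h (div_nonneg hV hV0.le)).trans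
    (dv_shrink hx hx1 hβ hV hVV hV0))
  ring

/-- the lower side at a smaller field, the same constant -/
theorem Lo.anti (hx : 0 < x) (hx1 : x ≤ 1) (hβ : 0 ≤ β) (hl : 0 ≤ l) (h : Lo n β x V l)
    (hV : 0 ≤ V') (hVV : V' ≤ V) : Lo n β x V' l := by
  rcases (hV.trans hVV).eq_or_lt with h0 | h0
  · have : V' = V := le_antisymm hVV (h0 ▸ hV)
    rwa [this]
  · refine (h.shrink hx hx1 hβ hV hVV h0).mono hx.le ?_
    have : V' / V ≤ 1 := (div_le_one h0).2 hVV
    exact mul_le_of_le_one_left hl this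

/-- the upper side at a larger field -/
theorem Hi.grow (hx : 0 < x) (hx1 : x ≤ 1) (hβ : 0 ≤ β) (h : Hi n β x V' l) (hV : 0 < V')
    (hVV : V' ≤ V) : Hi n β x V (V / V' * l) := by
  have hV0 : 0 < V := hV.trans_le hVV
  have h1 := dv_shrink (n := n) hx hx1 hβ hV.le hVV hV0
  unfold Hi at h ⊢
  have h2 := h1.trans h
  have h3 := mul_le_mul_of_nonneg_left h2 (show 0 ≤ V / V' by positivity)
  have e : V / V' * (V' / V * dv n β x V) = dv n β x V := by
    rw [← mul_assoc, div_mul_div_comm, mul_comm V V', div_self (by positivity), one_mul]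
  rw [e] at h3
  linarith

/-! ### propagation in the exponent -/

/-- **One crude step** (plain convexity in the exponent): the lower side at `x` and the upper side
at `y > x` give the lower side at `z = 2x - y`. -/
theorem dv_step (hz : 0 < z) (hzx : z ≤ x) (hy : y = 2 * x - z) (hy1 : y ≤ 1) {A D : ℝ}
    (hlo : -A ≤ dv n β x V) (hhi : dv n β y V ≤ D) :
    -(2 * A + D) - (P1 n β y + P1 n β z - 2 * P1 n β x) ≤ dv n β z V := by
  have h := (PF_conv n β V).2 (show z ∈ Ioc (0 : ℝ) 1 from ⟨hz, by linarith⟩)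
    (show y ∈ Ioc (0 : ℝ) 1 from ⟨by linarith, hy1⟩) (show (0 : ℝ) ≤ 1 / 2 by norm_num)
    (show (0 : ℝ) ≤ 1 / 2 by norm_num) (by norm_num)
  simp only [smul_eq_mul] at h
  rw [show 1 / 2 * z + 1 / 2 * y = x by rw [hy]; ring] at h
  unfold dv at hlo hhi ⊢
  linarith

/-- **The octave step** (`x PF` convex): from `2x`, `3x` to `x`. -/
theorem dv_oct (hx : 0 < x) (hx3 : 3 * x ≤ 1) {A D : ℝ}
    (hlo : -A ≤ dv n β (2 * x) V) (hhi : dv n β (3 * x) V ≤ D) :
    -(4 * A + 3 * D) - (P1 n β x + 3 * P1 n β (3 * x) - 4 * P1 n β (2 * x)) ≤ dv n β x V := by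
  have h := PF_cx (n := n) (β := β) (V := V) hx hx3
  unfold dv at hlo hhi ⊢
  linarith

/-- the octave step in the letters `Lo`, `Hi` (the constant grows by the factor `128`) -/
theorem Lo.oct (hx : 0 < x) (hx3 : 3 * x ≤ 1) {b c d : ℝ} (hlo : Lo n β (2 * x) V b)
    (hhi : Hi n β (3 * x) V c) (hz : P1 n β (3 * x) ≤ P1 n β (2 * x) + d * (n * x ^ 5)) :
    Lo n β x V (128 * b + 729 * c + 3 * d) := by
  have h1 := P1_mono (n := n) (β := β) hx (show x ≤ 2 * x by linarith)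
  have h := dv_oct (n := n) (β := β) (V := V) hx hx3 (A := b * (n * (2 * x) ^ 5))
    (D := c * (n * (3 * x) ^ 5)) hlo hhi
  unfold Lo
  refine le_trans ?_ h
  have e1 : b * (n * (2 * x) ^ 5) = 32 * (b * (n * x ^ 5)) := by ring
  have e2 : c * (n * (3 * x) ^ 5) = 243 * (c * (n * x ^ 5)) := by ring
  rw [e1, e2]
  have e3 : (128 * b + 729 * c + 3 * d) * (n * x ^ 5) = 128 * (b * (n * x ^ 5)) +
    729 * (c * (n * x ^ 5)) + 3 * (d * (n * x ^ 5)) := by ring
  rw [e3]
  linarith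

/-! ### the box -/

lemma Box.mono (hu : 0 ≤ u) (h : Box n β B u) {B' : ℝ} (hB : B ≤ B') : Box n β B' u := by
  intro v hv V hV
  exact (h v hv V hV).trans (mul_le_mul_of_nonneg_right hB (nx_nonneg hu))

lemma Box.nonneg (hu : 0 < u) (hn : 0 < n) (h : Box n β B u) : 0 ≤ B := by
  have h1 := h (u / 2) ⟨le_rfl, by linarith⟩ 0 ⟨le_rfl, by positivity⟩
  have h2 := (abs_nonneg _).trans h1
  have hn' : (0 : ℝ) < n := Nat.cast_pos.2 hn
  exact nonneg_of_mul_nonneg_left h2 (by positivity)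

lemma Box.le (h : Box n β B u) {v : ℝ} (hv : u / 2 ≤ v) (hv' : v ≤ 4 * u) (hV : 0 ≤ V)
    (hV' : V ≤ 8 * u ^ 3) : PF n β v V ≤ P1 n β v + n * V / (2 * β) + B * (n * u ^ 5) := by
  have := (abs_le.1 (h v ⟨hv, hv'⟩ V ⟨hV, hV'⟩)).2
  unfold dv at this
  linarith

lemma Box.ge (h : Box n β B u) {v : ℝ} (hv : u / 2 ≤ v) (hv' : v ≤ 4 * u) (hV : 0 ≤ V)
    (hV' : V ≤ 8 * u ^ 3) : P1 n β v + n * V / (2 * β) - B * (n * u ^ 5) ≤ PF n β v V := by
  have := (abs_le.1 (h v ⟨hv, hv'⟩ V ⟨hV, hV'⟩)).1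
  unfold dv at this
  linarith

/-- **The box from the two sides.** -/
theorem Box.of (hu : 0 ≤ u) {b c : ℝ} (hb : 0 ≤ b)
    (hlo : ∀ v ∈ Icc (u / 2) (4 * u), ∀ V ∈ Icc 0 (8 * u ^ 3), Lo n β v V b)
    (hhi : ∀ v ∈ Icc (u / 2) (4 * u), ∀ V ∈ Icc 0 (8 * u ^ 3), Hi n β v V c) :
    Box n β (1024 * max b c) u := by
  intro v hv V hV
  have h1 := hlo v hv V hV
  have h2 := hhi v hv V hV
  unfold Lo at h1
  unfold Hi at h2
  have hv0 : 0 ≤ v := by have := hv.1; linarith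
  have h3 : (n : ℝ) * v ^ 5 ≤ 1024 * (n * u ^ 5) := by
    have : v ^ 5 ≤ (4 * u) ^ 5 := pow_le_pow_left₀ hv0 hv.2 5
    have := mul_le_mul_of_nonneg_left this (Nat.cast_nonneg (α := ℝ) n)
    refine this.trans (le_of_eq ?_)
    ring
  have h0 : 0 ≤ (n : ℝ) * v ^ 5 := nx_nonneg hv0
  have hm : 0 ≤ max b c := hb.trans (le_max_left _ _)
  have h4 : max b c * (n * v ^ 5) ≤ 1024 * max b c * (n * u ^ 5) := by
    have := mul_le_mul_of_nonneg_left h3 hm
    linarith
  have h5 : b * (n * v ^ 5) ≤ max b c * (n * v ^ 5) :=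
    mul_le_mul_of_nonneg_right (le_max_left _ _) h0
  have h6 : c * (n * v ^ 5) ≤ max b c * (n * v ^ 5) :=
    mul_le_mul_of_nonneg_right (le_max_right _ _) h0
  rw [abs_le]
  constructor <;> linarith

/-- **The box at the scale `u` from the two sides on the natural windows `V ≤ x³`**: the lower
side with the constant `b`, the upper side with the constant `c` (for `V ≤ 8 x³`), the contiguity
`P1 (3x) ≤ P1 (2x) + d n x⁵`. -/
theorem Box.of_star (hu : 0 < u) (hu1 : 16 * u ≤ 1) {b c d : ℝ} (hb : 0 ≤ b)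
    (hc : 0 ≤ c) (hd : 0 ≤ d)
    (hlo : ∀ x ∈ Icc (u / 2) (8 * u), ∀ V ∈ Icc 0 (x ^ 3), Lo n β x V b)
    (hhi : ∀ x ∈ Icc (u / 2) (16 * u), ∀ V ∈ Icc 0 (8 * u ^ 3), Hi n β x V c)
    (hz : ∀ x ∈ Icc (u / 2) (4 * u), P1 n β (3 * x) ≤ P1 n β (2 * x) + d * (n * x ^ 5)) :
    Box n β (1024 * (16384 * b + 94041 * c + 387 * d)) u := by
  have hB : 0 ≤ 16384 * b + 94041 * c + 387 * d := by positivity
  have hmax : max (16384 * b + 94041 * c + 387 * d) c = 16384 * b + 94041 * c + 387 * d :=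
    max_eq_left (by linarith)
  have key := Box.of (n := n) (β := β) hu.le hB (c := c) (fun v hv V hV => ?_)
    (fun v hv V hV => hhi v ⟨hv.1, by linarith [hv.2]⟩ V hV)
  · rwa [hmax] at key
  · have hv0 : 0 < v := by linarith [hv.1]
    have h8 : ∀ x, 2 * u ≤ x → V ≤ x ^ 3 := fun x hx => by
      refine hV.2.trans ?_
      have := pow_le_pow_left₀ (by linarith : (0 : ℝ) ≤ 2 * u) hx 3
      linarith [this, show (2 * u) ^ 3 = 8 * u ^ 3 by ring]
    rcases le_total (2 * u) v with h | h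
    · refine (hlo v ⟨hv.1, by linarith [hv.2]⟩ V ⟨hV.1, h8 v h⟩).mono hv0.le ?_
      linarith
    · have h4 : Lo n β (2 * (2 * v)) V b :=
        hlo (2 * (2 * v)) ⟨by linarith [hv.1], by linarith⟩ V
          ⟨hV.1, h8 _ (by linarith [hv.1])⟩
      have h2 : Lo n β (2 * v) V (128 * b + 729 * c + 3 * d) :=
        Lo.oct (by linarith) (by linarith) h4
          (hhi _ ⟨by linarith [hv.1], by linarith⟩ V hV)
          (hz _ ⟨by linarith [hv.1], by linarith⟩)
      have h1 : Lo n β v V (128 * (128 * b + 729 * c + 3 * d) + 729 * c + 3 * d) :=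
        Lo.oct hv0 (by linarith) h2
          (hhi _ ⟨by linarith [hv.1], by linarith⟩ V hV)
          (hz _ ⟨hv.1, by linarith⟩)
      exact h1.mono hv0.le (by linarith)

end Vale.Agent.P146.H94
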