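import Mathlib

/-!
# P146: oscillation of the responses from the free energies (helper94)

Pure real analysis.  `F` is a free energy as a function of the variance of one field, with the
derivative `χ / 2`, `χ` antitone; if `F` is within `E` of an affine function of slope `g / 2` then
`χ` is within `4 E / R` of `g` at distance `R` from the ends.
-/

namespace Vale.Agent.P146.H94.Osc

open Set

/-- slope bound: the derivative of a function with antitone derivative is at most the slope to
the left -/
lemma mul_le_sub_left {F χ : ℝ → ℝ} {a t : ℝ} (hat : a ≤ t)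
    (hF : ∀ s ∈ Icc a t, HasDerivAt F (χ s / 2) s)
    (hχ : ∀ s ∈ Icc a t, χ t ≤ χ s) : χ t / 2 * (t - a) ≤ F t - F a := by
  have hd : DifferentiableOn ℝ F (interior (Icc a t)) := fun s hs =>
    (hF s (interior_subset hs)).differentiableAt.differentiableWithinAt
  have hc : ContinuousOn F (Icc a t) := fun s hs => (hF s hs).continuousAt.continuousWithinAt
  refine (convex_Icc a t).mul_sub_le_image_sub_of_le_deriv hc hd (fun s hs => ?_) a
    (left_mem_Icc.2 hat) t (right_mem_Icc.2 hat) hat
  rw [(hF s (interior_subset hs)).deriv]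
  have := hχ s (interior_subset hs)
  linarith

/-- slope bound: the slope to the right is at most the derivative -/
lemma sub_le_mul_right {F χ : ℝ → ℝ} {t b : ℝ} (htb : t ≤ b)
    (hF : ∀ s ∈ Icc t b, HasDerivAt F (χ s / 2) s)
    (hχ : ∀ s ∈ Icc t b, χ s ≤ χ t) : F b - F t ≤ χ t / 2 * (b - t) := by
  have hd : DifferentiableOn ℝ F (interior (Icc t b)) := fun s hs =>
    (hF s (interior_subset hs)).differentiableAt.differentiableWithinAt
  have hc : ContinuousOn F (Icc t b) := fun s hs => (hF s hs).continuousAt.continuousWithinAt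
  refine (convex_Icc t b).image_sub_le_mul_sub_of_deriv_le hc hd (fun s hs => ?_) t
    (left_mem_Icc.2 htb) b (right_mem_Icc.2 htb) htb
  rw [(hF s (interior_subset hs)).deriv]
  have := hχ s (interior_subset hs)
  linarith

/-- **Oscillation lemma**: `F` within `E` of an affine function of slope `g / 2` on `[t - R, t + R]`
and `F' = χ / 2` with `χ` antitone: `|χ t - g| ≤ 4 E / R`. -/
lemma abs_sub_le {F χ : ℝ → ℝ} {t R E A g : ℝ} (hR : 0 < R)
    (hF : ∀ s ∈ Icc (t - R) (t + R), HasDerivAt F (χ s / 2) s)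
    (hχ : AntitoneOn χ (Icc (t - R) (t + R)))
    (hE : ∀ s ∈ Icc (t - R) (t + R), |F s - (A + g / 2 * s)| ≤ E) : |χ t - g| ≤ 4 * E / R := by
  have ht : t ∈ Icc (t - R) (t + R) := ⟨by linarith, by linarith⟩
  have hl : t - R ∈ Icc (t - R) (t + R) := ⟨le_rfl, by linarith⟩
  have hr : t + R ∈ Icc (t - R) (t + R) := ⟨by linarith, le_rfl⟩
  have h1 := mul_le_sub_left (F := F) (χ := χ) (a := t - R) (t := t) (by linarith)
    (fun s hs => hF s ⟨hs.1, by linarith [hs.2]⟩)
    (fun s hs => hχ ⟨hs.1, by linarith [hs.2]⟩ ht hs.2)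
  have h2 := sub_le_mul_right (F := F) (χ := χ) (t := t) (b := t + R) (by linarith)
    (fun s hs => hF s ⟨by linarith [hs.1], hs.2⟩)
    (fun s hs => hχ ht ⟨by linarith [hs.1], hs.2⟩ hs.1)
  have e0 := abs_le.1 (hE t ht)
  have e1 := abs_le.1 (hE _ hl)
  have e2 := abs_le.1 (hE _ hr)
  rw [abs_le, ← neg_div, div_le_iff₀ hR, le_div_iff₀ hR]
  constructor <;> nlinarith

end Vale.Agent.P146.H94.Osc
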